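import Vale.Agent.P171.Main

/-!
A stable tempered radial pair potential in three dimensions with a phase transition.
-/

open MeasureTheory Filter
open scoped Topology

namespace Vale.Agent.Results.P171.PhaseTransition

open Vale.Agent.P171

/-- Some stable tempered radial pair potential has a nondifferentiable pressure. -/
theorem result :
    ∃ φ : ℝ → ℝ, Measurable φ ∧ IsLocallyBoundedOnPos φ ∧ IsStable φ ∧ IsTempered φ ∧
      ∃ β : ℝ, 0 < β ∧
        (∀ (L : ℝ) (N : ℕ),
          IntegrableOn (fun x : Fin N → Point => Real.exp (-β * energy φ x)) (configs L N)) ∧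
        (∀ (z L : ℝ), 0 < z → Summable (fun N => z ^ N * canonical φ β L N)) ∧
        ∃ P : ℝ → ℝ,
          (∀ z, 0 < z → Tendsto (fun L : ℝ => (L ^ 3)⁻¹ * Real.log (grand φ β z L)) atTop (𝓝 (P z))) ∧
          ∃ z₀, 0 < z₀ ∧ ¬ DifferentiableAt ℝ P z₀ :=
  exists_phase_transition

end Vale.Agent.Results.P171.PhaseTransition
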